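import Vale.Agent.P275RF.Exr

/-!
# P275, Riemann-Hilbert in families: continuity of the monodromy and of the strict frames
-/

set_option linter.all false

open scoped Topology Real Matrix.Norms.Operator
open Filter Set Metric Complex
open Vale.Agent.P275GC (At)
open Vale.Agent.P275GC.At
open Vale.Agent.P275NA (Fm Mn)
open Vale.Agent.P275ST (Pc)
open Vale.Agent.P275MO Vale.Agent.P275MB
open Vale.Agent.P275RH Vale.Agent.P275RL Vale.Agent.P275Z

noncomputable section

namespace Vale.Agent.P275RF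

theorem const_on {X Y : Type} [TopologicalSpace X] {s : Set X} {f : X → Y} (hs : IsPreconnected s)
    (h : ∀ x ∈ s, ∀ᶠ y in 𝓝 x, f y = f x) {x y : X} (hx : x ∈ s) (hy : y ∈ s) : f x = f y :=
  haveI := isPreconnected_iff_preconnectedSpace.1 hs
  ((IsLocallyConstant.iff_eventually_eq fun a : s => f a).2 fun a =>
    continuous_subtype_val.continuousAt.eventually (h a a.2)).apply_eq_of_preconnectedSpace
      ⟨x, hx⟩ ⟨y, hy⟩

theorem ev_sub {X : Type} [TopologicalSpace X] {S : Set X} (hS : IsOpen S) {a : S} {Q : S → Prop}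
    (h : ∀ᶠ b in 𝓝 a, Q b) : ∀ᶠ b in 𝓝 a.1, ∃ h : b ∈ S, Q ⟨b, h⟩ := by
  rw [← hS.isOpenEmbedding_subtypeVal.map_nhds_eq]
  exact h.mono fun b e => ⟨b.2, e⟩

open Classical in
theorem cont_dite {X : Type} [TopologicalSpace X] {S : Set X} (hS : IsOpen S) {f : S → ℂ}
    (hf : Continuous f) (a : S) :
    ContinuousAt (fun b => if h : b ∈ S then f ⟨b, h⟩ else 0) a.1 :=
  (continuousOn_iff_continuous_restrict.2 (hf.congr fun b => by
    simp only [restrict_apply, dif_pos b.2])).continuousAt (hS.mem_nhds a.2)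

theorem ca_inv' {X : Type} [TopologicalSpace X] {n : ℕ} {u : X → Mn n} {x : X}
    (h : ContinuousAt u x) (d : (u x).det ≠ 0) : ContinuousAt (fun y => (u y)⁻¹) x :=
  Tendsto.comp (ca_inv d) h

theorem ev_det {X : Type} [TopologicalSpace X] {n : ℕ} {u : X → Mn n} {x : X}
    (h : ContinuousAt u x) (d : (u x).det ≠ 0) : ∀ᶠ y in 𝓝 x, (u y).det ≠ 0 :=
  ((continuous_id.matrix_det (R := ℂ)).continuousAt.comp h).eventually_ne d

variable {C : Type} [TopologicalSpace C] [T2Space C] {n g : ℕ} {A : At C} {l : P275NA.Cy A ℂ}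
  {d : ℤ} {i j : Fin A.N} {P : Loc A l g n d} {T : Type} [TopologicalSpace T]
  {Z : T → Dat C A.N n} {ρ : T → Tup g n} {F : T → P.ι → Fm A (Mn n)} {G : T → ℂ → Mn n}
  {r : ℝ} {h1 : 1 < r} {h2 : r ≤ A.R} {W : Set T} {t : T} {k m : P.ι}

theorem wd_open (P : Loc A l g n d) : IsOpen {p : C × C | p.1 ∈ P.V ∧ p.2 ≠ p.1} :=
  (P.opn.preimage continuous_fst).inter (isOpen_ne_fun continuous_snd continuous_fst)

theorem nd_open (P : Loc A l g n d) : IsOpen {p : C × ℂ | p.1 ∈ P.V ∧ p.2.re < Real.log P.δ} :=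
  (P.opn.preimage continuous_fst).inter (isOpen_lt (continuous_re.comp continuous_snd) continuous_const)

/-- the gauges at the pole are jointly continuous -/
theorem jg (f : FamOn (A.res r h1 h2) l Z W) (hp : ∀ t ∈ W, Pre A l d (Z t))
    (hx : ∀ t ∈ W, (Z t).x ∈ P.V) (hG : ∀ t ∈ W, IsG A (Z t) P.a P.δ (G t)) :
    ContinuousOn (fun p : T × ℂ => G p.1 p.2)
      {p | p.1 ∈ W ∧ p.2 ∈ ball (A.e P.a (Z p.1).x) P.δ} := by
  have s : ∀ t ∈ W, (Z t).x ∈ ((A.res r h1 h2).e P.a).source := fun t a =>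
    InU.res (P.inU (hx t a))
  have c : ContinuousOn (fun t => A.e P.a (Z t).x) W := (FamOn.p f P.a).mono fun t a => ⟨a, s t a⟩
  refine (cont_sh c).1 (hz_fam (A := fun t => fill A (Z t) P.a) (B := fun t _ => (Z t).R)
    (fun t a => (Good.fill (f.good t a) (s t a)).mono (P.ball_res (hx t a) h1))
    (fun _ _ => differentiableOn_const _) (fun t a => (hG t a).1)
    (fun t a => fill_nr (A := A.res r h1 h2) (f.good t a) (hp t a).gen (s t a))
    ((cont_sh (f := fun t => fill A (Z t) P.a) c).2 ?_)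
    (f.R.comp continuousOn_fst fun _ a => a.1) ?_)
  · exact (FamOn.fill f P.a).mono fun p a => ⟨⟨a.1, s _ a.1⟩, P.ball_res (hx _ a.1) h1 a.2⟩
  · exact ((f.σ P.a).mono fun t a => ⟨a, s t a⟩).congr fun t a => (hG t a).2

section univ

variable (f : FamOn (A.res r h1 h2) l Z univ) {hx : ∀ t, (Z t).x ∈ P.V}
include f

theorem cx : Continuous fun t => (Z t).x := continuousOn_univ.1 f.x

theorem ev_t {y : Pc (Z t).x} {Q : Wd P.V → Prop} (h : ∀ᶠ a in 𝓝 (fib (hx t) y), Q a) :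
    ∀ᶠ s in 𝓝 t, ∃ e : y.1 ∈ ({(Z s).x}ᶜ : Set C), Q (fib (hx s) ⟨y.1, e⟩) :=
  (((cx f).prodMk continuous_const).continuousAt.eventually (ev_sub (wd_open P) h)).mono
    fun _ ⟨a, b⟩ => ⟨a.2, b⟩

theorem ev_tw {y : Pc (Z t).x} (b : InU A j y) {Q : Wd P.V → Prop}
    (h : ∀ᶠ a in 𝓝 (fib (hx t) y), Q a) : ∀ᶠ p : T × ℂ in 𝓝 (t, A.e j y),
      ∃ y' : Pc (Z p.1).x, Q (fib (hx p.1) y') ∧ InU A j y' ∧ A.e j y' = p.2 := by
  have c : Tendsto (fun p : T × ℂ => ((Z p.1).x, (A.e j).symm p.2)) (𝓝 (t, A.e j y))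
      (𝓝 ((Z t).x, y.1)) := by
    have := (((cx f).comp continuous_fst).continuousAt (x := (t, A.e j y))).prodMk
      (ContinuousAt.comp (f := Prod.snd) (contAt_symm (i := j) (map_src b.1)) continuousAt_snd)
    simpa only [ContinuousAt, Function.comp_def, (A.e j).left_inv b.1] using this
  filter_upwards [c.eventually (ev_sub (wd_open P) h :), continuousAt_snd.eventually
    ((isOpen_lt continuous_norm continuous_const).mem_nhds b.2)] with p ⟨a, e⟩ e'
  have h3 := mem_of_le (A := A) (le_of_lt e')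
  exact ⟨⟨_, a.2⟩, e, ⟨map_tgt h3, (rinv h3).symm ▸ e'⟩, rinv h3⟩

variable (hn : n ≠ 0) (hp : ∀ t, Pre A l d (Z t))
  (hs : ∀ t, Str P (Z t) (hx t) (ρ t) (F t) (G t))
include hn hp hs

theorem loc_fam {y : Pc (Z t).x} (a : fib (hx t) y ∈ P.U k) (b : InU A j y) :
    ∃ ε > 0, ∃ M : T → ℂ → Mn n, (∀ w ∈ ball (A.e j y) ε,
      ContinuousAt (fun p : T × ℂ => M p.1 p.2) (t, w) ∧ (M t w).det ≠ 0) ∧
      ∀ᶠ s in 𝓝 t, ∀ w ∈ ball (A.e j y) ε, F s k j w = M s w * F s k j (A.e j y) := by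
  set w0 := A.e j y
  let u : T × ℂ → ℂ := fun p => P.u (Z p.1).x j p.2
  have e1 := ev_tw f b ((P.cy.opn k).eventually_mem a)
  have cu : ∀ {N : Set (T × ℂ)}, (∀ p ∈ N, p.2 ∈ off A (Z p.1).x j) → ContinuousOn u N :=
    fun h => (P.uc j).comp (((cx f).comp continuous_fst).prodMk continuous_snd).continuousOn
      fun p e => ⟨hx _, h p e⟩
  have c0 : ContinuousAt u (t, w0) :=
    (cu fun p h => h).continuousAt (e1.mono fun p ⟨y', _, e, e'⟩ => e' ▸ off_of e)
  have c1 : ∀ w, ContinuousAt (fun p : T × ℂ => u (p.1, w0)) (t, w) := fun w =>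
    Tendsto.comp c0 (show ContinuousAt (fun p : T × ℂ => (p.1, w0)) (t, w) by fun_prop)
  have e2 : ∀ᶠ p : T × ℂ in 𝓝 (t, w0), u p / u (p.1, w0) ∈ slitPlane :=
    (c0.div (c1 w0) (u_ne (hx t) b)).eventually (isOpen_slitPlane.mem_nhds (by
      simp [div_self (show u (t, w0) ≠ 0 from u_ne (hx t) b)]))
  obtain ⟨N, hN, B, hB, hNB⟩ := mem_nhds_prod_iff.1 (e1.and e2)
  obtain ⟨ε, ε0, hε⟩ := Metric.mem_nhds_iff.1 hB
  have k1 : ∀ s ∈ N, ∀ w ∈ ball w0 ε, (∃ y' : Pc (Z s).x, fib (hx s) y' ∈ P.U k ∧ InU A j y' ∧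
      A.e j y' = w) ∧ u (s, w) / u (s, w0) ∈ slitPlane := fun s p w q =>
    hNB (show (s, w) ∈ N ×ˢ B from ⟨p, hε q⟩)
  have k2 : ∀ s ∈ N, ∀ w ∈ ball w0 ε, w ∈ off (A.res r h1 h2) (Z s).x j := fun s p w q =>
    let ⟨y', _, e, e'⟩ := (k1 s p w q).1
    e' ▸ InU.off e y'.2
  have k3 : ∀ s ∈ N, ∀ w ∈ ball w0 ε, u (s, w) ≠ 0 := fun s p w q =>
    let ⟨y', _, e, e'⟩ := (k1 s p w q).1
    e' ▸ u_ne (hx s) e
  have k4 : ∀ s ∈ N, DifferentiableOn ℂ ((Z s).a j) (ball w0 ε) := fun s p =>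
    ((f.good s trivial).hol j).mono (k2 s p)
  choose! Φ Φ' hΦ using fun s p => flat_ex (k4 s p)
  have c2 := (gau_fam (c := fun _ => w0) continuousOn_const
    (fun s p => (differentiableOn_id.sub_const w0).smul (k4 s p)) hΦ
    (fun _ _ => by simpa using nr_zero) ((continuousOn_snd.sub continuousOn_const).smul
      ((f.a j).mono fun p e => ⟨trivial, k2 _ e.1 _ e.2⟩))).1
  have d1 : ∀ s ∈ N, ∀ w ∈ ball w0 ε, (Φ s w).det = 1 := fun s p => (hΦ s p).det_one fun w q => by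
    simp [(f.good s trivial).tr j w (k2 s p w q)]
  let θ : T × ℂ → ℂ := fun p => exp (log (u p / u (p.1, w0)) / n)
  have c3 : ContinuousOn θ (N ×ˢ ball w0 ε) := by
    have a1 : ContinuousOn u (N ×ˢ ball w0 ε) := cu fun p e => off_res (k2 _ e.1 _ e.2)
    exact (((a1.div (a1.comp (f := fun p : T × ℂ => (p.1, w0)) (by fun_prop) fun p e =>
      ⟨e.1, mem_ball_self ε0⟩) fun p e => k3 _ e.1 _ (mem_ball_self ε0)).clog
        fun p e => (k1 _ e.1 _ e.2).2).div_const _).cexp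
  have d2 : ∀ s ∈ N, ∀ w ∈ ball w0 ε, (θ (s, w) • Φ s w).det = u (s, w) / u (s, w0) :=
    fun s p w q => by
      rw [Matrix.det_smul, Fintype.card_fin, d1 s p w q, mul_one, ← exp_nat_mul,
        mul_div_cancel₀ _ (Nat.cast_ne_zero.2 hn),
        exp_log (div_ne_zero (k3 s p w q) (k3 s p _ (mem_ball_self ε0)))]
  have d3 : ∀ s ∈ N, ∀ w ∈ ball w0 ε, (θ (s, w) • Φ s w).det ≠ 0 := fun s p w q =>
    d2 s p w q ▸ div_ne_zero (k3 s p w q) (k3 s p _ (mem_ball_self ε0))
  refine ⟨ε, ε0, fun s w => θ (s, w) • Φ s w, fun w q => ⟨(c3.smul c2).continuousAt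
    (prod_mem_nhds hN (isOpen_ball.mem_nhds q)), d3 t (mem_of_mem_nhds hN) w q⟩,
    eventually_of_mem hN fun s p w q => ?_⟩
  have σ0 := (f.good s trivial).fr P.a (InU.res (P.inU (hx s)))
  have := const_on (f := fun w => (θ (s, w) • Φ s w)⁻¹ * F s k j w) (convex_ball w0 ε).isPreconnected
    (fun v hv => by
      obtain ⟨y', a1, a2, rfl⟩ := (k1 s p v hv).1
      refine PF.lc' hn (((hΦ s p).ph (k4 s p).continuousOn hv).2.pf.smul
        (eventually_of_mem (isOpen_ball.mem_nhds hv) fun v' hv' =>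
          ((c3.comp (Continuous.prodMk_right s).continuousOn fun _ e => ⟨p, e⟩).continuousAt
            (isOpen_ball.mem_nhds hv')))) ((hs s).pf y' k j a1 a2) (d3 s p _ hv)
        (mul_ne_zero σ0 (k3 s p _ (mem_ball_self ε0))) ?_
      filter_upwards [(hs s).toFk.det_ev a1 a2, isOpen_ball.mem_nhds hv] with v' b1 b2
      rw [b1, d2 s p v' b2, mul_assoc, mul_div_cancel₀ _ (k3 s p _ (mem_ball_self ε0))])
    q (mem_ball_self ε0)
  simp only [θ, div_self (k3 s p _ (mem_ball_self ε0)), log_one, zero_div, exp_zero, one_smul,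
    (hΦ s p).g1, inv_one, one_mul] at this
  beta_reduce
  rw [← this, mul_inv_can (d3 s p w q)]

theorem pt_cont [ConnectedSpace C] (y : Pc (Z t).x) (a : fib (hx t) y ∈ P.U k) (v : Fg g)
    (b : InU A j y) : ContinuousAt (fun s => F s k j (A.e j y) * wv (ρ s) v) t := by
  haveI := pcs A (Z t).x
  let Q : Pc (Z t).x → P.ι → Fg g → Prop := fun y k v => ∀ j, InU A j y →
    ContinuousAt (fun s => F s k j (A.e j y) * wv (ρ s) v) t
  have q1 : ∀ {y : Pc (Z t).x} {k v j}, fib (hx t) y ∈ P.U k → InU A j y →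
      ContinuousAt (fun s => F s k j (A.e j y) * wv (ρ s) v) t → Q y k v :=
    fun {y k v j} a b c i b' => by
      refine (ContinuousAt.mul (f := fun s => (Z s).g i j (A.e i y)) (continuousOn_univ.1
        ((f.g i j).comp (Continuous.prodMk_left _).continuousOn fun _ _ =>
          ⟨trivial, InU.O b' b⟩)).continuousAt c).congr ?_
      filter_upwards [ev_t f ((P.cy.opn k).eventually_mem a)] with s ⟨e, e'⟩
      rw [(hs s).chg ⟨y.1, e⟩ k i j e' b' b, mul_assoc]
      rfl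
  obtain ⟨q, k0, e, hk⟩ := ex_q (P := P) (hx t)
  have hk' : fib (hx t) (P.pc q e) ∈ P.U k0 := P.fib_pc q e (hx t) ▸ hk
  refine prop (cyx P (hx t)) (fun y k h => (P.univ _ (hx t) y k h).2) (Z := Q)
    (fun y k m v a a' => forall₂_congr fun j b => continuousAt_congr ?_) (fun y k a => ?_)
    (x := P.pc q e) (k := k0) (w := P.b k0 q) hk'
    (q1 hk' (P.ν_e q).1 ?_) y k a v j b
  · filter_upwards [ev_t f ((((P.cy.opn k).eventually_mem a).and
      ((P.cy.opn m).eventually_mem a')).and (P.cy.lc k m _ ⟨a, a'⟩))] with s ⟨e, e'⟩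
    rw [(hs s).coc ⟨y.1, e⟩ k m j e'.1.1 e'.1.2 b, e'.2, wv_mul, mul_assoc]
  · obtain ⟨j, b⟩ := A.cov y
    obtain ⟨ε, ε0, M, m1, m2⟩ := loc_fam f hn hp hs a b
    filter_upwards [ev_U (hx t) a, ev_inU b, (tend_e b).eventually (ball_mem_nhds _ ε0)]
      with y' a' b' c v
    have c1 : ContinuousAt (fun s => M s (A.e j y')) t :=
      ContinuousAt.comp (f := fun s => (s, A.e j y')) (m1 _ c).1 (by fun_prop)
    refine ⟨fun h => q1 a b (((ca_inv' c1 (m1 _ c).2).mul (h j b')).congr ?_),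
      fun h => q1 a' b' ((c1.mul (h j b)).congr (m2.mono fun s e => ?_))⟩
    · filter_upwards [m2, ev_det c1 (m1 _ c).2] with s e e'
      simp only [Pi.mul_apply]
      rw [e _ c, mul_assoc]
      exact inv_mul_can e' _
    · simp only [Pi.mul_apply]
      rw [e _ c, mul_assoc]
  · classical
    obtain ⟨⟨x, L⟩, hq⟩ := q
    obtain rfl : x = (Z t).x := e
    set q : Nd P.V P.δ := ⟨((Z t).x, L), hq⟩
    set w0 := A.e P.a (Z t).x + exp L
    have e0 : A.e P.a (P.pc q rfl) = w0 := (P.ν_e q).2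
    have c0 : Continuous fun s => A.e P.a (Z s).x :=
      (A.e P.a).continuousOn.comp_continuous (cx f) fun s => (P.inU (hx s)).1
    have c1 : ContinuousAt (fun s => br (A.e P.a (Z s).x) L w0) t :=
      continuousAt_const.add (((continuous_const.sub c0).div_const _).continuousAt.clog
        (by simp [w0]))
    have c2 : Tendsto (fun s => ((Z s).x, br (A.e P.a (Z s).x) L w0)) (𝓝 t) (𝓝 q.1) := by
      simpa only [ContinuousAt, w0, br_self] using (cx f).continuousAt.prodMk c1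
    have c3 := cont_dite (nd_open P) P.sc q
    have c4 : ContinuousAt (fun s => G s w0) t :=
      ContinuousAt.comp (f := fun s => (s, w0)) ((jg f (fun s _ => hp s) (fun s _ => hx s)
        fun s _ => (hs s).isG).continuousAt ((isOpen_univ.preimage continuous_fst).inter
          (isOpen_lt (continuous_snd.dist (c0.comp continuous_fst)) continuous_const) |>.mem_nhds
            ⟨trivial, P.mem_ball q⟩)) (by fun_prop)
    rw [e0]
    refine (ContinuousAt.smul (ContinuousAt.comp_of_eq c3 ((cx f).continuousAt.prodMk c1)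
      (by simp only [w0, br_self]; rfl)) (c4.mul (ex_cont.continuousAt.comp
        ((continuousOn_univ.1 f.R).continuousAt.prodMk c1.neg)))).congr ?_
    filter_upwards [c2.eventually (ev_sub (nd_open P) ((P.fs.lc k0 q hk).and
      (P.ν.continuous.continuousAt.eventually ((P.cy.opn k0).mem_nhds hk)))),
      c0.continuousAt.eventually_ne (y := w0) (by simp [w0])] with s ⟨a, b⟩ c
    have := (hs s).nrm ⟨_, a⟩ k0 rfl b.2
    rw [mdl, b.1, exp_br c.symm, add_sub_cancel] at this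
    rw [this]
    exact congrArg (fun c : ℂ => c • (G s w0 * ex (Z s).R (-br (A.e P.a (Z s).x) L w0)))
      (dif_pos a)

theorem jc0 [ConnectedSpace C] (y : Pc (Z t).x) (a : fib (hx t) y ∈ P.U k) (b : InU A j y)
    (v : Fg g) : ContinuousAt (fun p : T × ℂ => F p.1 k j p.2 * wv (ρ p.1) v) (t, A.e j y) := by
  obtain ⟨ε, ε0, M, m1, m2⟩ := loc_fam f hn hp hs a b
  refine ((m1 _ (mem_ball_self ε0)).1.mul ((pt_cont f hn hp hs y a v b).comp
    continuousAt_fst)).congr ?_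
  filter_upwards [continuousAt_fst.eventually m2, continuousAt_snd.eventually (ball_mem_nhds _ ε0)]
    with p e e'
  rw [e _ e', mul_assoc]
  rfl

theorem rho_cont [ConnectedSpace C] : Continuous ρ :=
  continuous_iff_continuousAt.2 fun t => continuousAt_pi.2 fun s => by
    obtain ⟨q, k, e, hk⟩ := ex_q (P := P) (hx t)
    have a := P.fib_pc q e (hx t) ▸ hk
    have b := (P.ν_e q).1
    have c1 := pt_cont f hn hp hs (P.pc q e) a 1 b
    simp only [wv_one, mul_one] at c1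
    have d := (hs t).toFk.ne ((f.good t trivial).fr P.a (InU.res (P.inU (hx t)))) a b
    refine tendsto_subtype_rng.2 (show ContinuousAt (fun t => (ρ t s).1) t from
      ((ca_inv' c1 d).mul (pt_cont f hn hp hs (P.pc q e) a (.of s) b)).congr ?_)
    filter_upwards [ev_det c1 d] with t' e'
    simp only [Pi.mul_apply]
    rw [wv_of]
    exact inv_mul_can e' _

end univ

/-- the strict frames are jointly continuous -/
theorem jc [ConnectedSpace C] (hn : n ≠ 0) (f : FamOn (A.res r h1 h2) l Z W)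
    (hp : ∀ t ∈ W, Pre A l d (Z t)) (hx : ∀ t ∈ W, (Z t).x ∈ P.V)
    (hs : ∀ t (ht : t ∈ W), Str P (Z t) (hx t ht) (ρ t) (F t) (G t)) (ht : t ∈ W)
    (y : Pc (Z t).x) (k : P.ι) (j : Fin A.N) (a : fib (hx t ht) y ∈ P.U k) (b : InU A j y)
    (v : Fg g) : ContinuousWithinAt (fun p : T × ℂ => F p.1 k j p.2 * wv (ρ p.1) v) (W ×ˢ univ)
      (t, A.e j y) := by
  have := jc0 (T := W) (t := ⟨t, ht⟩) (FamOn.comp f continuous_subtype_val.continuousOn
    fun s _ => s.2) hn (fun s => hp s s.2) (fun s => hs s s.2) y a b v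
  rw [ContinuousWithinAt, nhdsWithin_prod_eq, nhdsWithin_univ, ← map_nhds_subtype_val ⟨t, ht⟩,
    ← map_id (f := 𝓝 (A.e j y)), prod_map_map_eq, ← nhds_prod_eq]
  exact this

/-- **CONT** -/
theorem cont (hS : Std A l n d) (P : Loc A l g n d) : CONT P := fun T _ Z ρ W r h1 h2 f h => by
  haveI := hS.conn
  choose hx F G hs using fun s : W => str_of_rel (Std.ne hS) (h s s.2)
  exact continuousOn_iff_continuous_restrict.2 (rho_cont (T := W) (FamOn.comp f
    continuous_subtype_val.continuousOn fun s _ => s.2) (Std.ne hS) (fun s => (h s s.2).1) hs)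

end Vale.Agent.P275RF
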