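import Vale.Agent.P275RF.Top

/-!
# P275, Riemann-Hilbert in families: existence of the monodromy, strict frames
-/

set_option linter.all false

open scoped Topology Real Matrix.Norms.Operator
open Filter Set Metric Complex
open Vale.Agent.P275GC (At)
open Vale.Agent.P275GC.At
open Vale.Agent.P275NA (Fm Mn)
open Vale.Agent.P275ST (Pc)
open Vale.Agent.P275MO Vale.Agent.P275MB
open Vale.Agent.P275RH Vale.Agent.P275RL Vale.Agent.P275Z

noncomputable section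

namespace Vale.Agent.P275RF

variable {C : Type} [TopologicalSpace C] {n g : ℕ} {A : At C} {l : P275NA.Cy A ℂ} {d : ℤ}
  {x : C} {i j : Fin A.N}

theorem tend_e {y : Pc x} (h : InU A j y) :
    Tendsto (fun y : Pc x => A.e j y) (𝓝 y) (𝓝 (A.e j y)) :=
  ((A.e j).continuousAt h.1).comp continuous_subtype_val.continuousAt

theorem ev_inU {y : Pc x} (h : InU A j y) : ∀ᶠ y' : Pc x in 𝓝 y, InU A j y' :=
  continuous_subtype_val.continuousAt.eventually ((inU_open A j).mem_nhds h)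

theorem ev_pt [T1Space C] {y : Pc x} (h : InU A j y) {Q : Pc x → Prop} (hQ : ∀ᶠ y' in 𝓝 y, Q y') :
    ∀ᶠ w in 𝓝 (A.e j y), ∃ y' : Pc x, Q y' ∧ InU A j y' ∧ A.e j y' = w := by
  rw [← (A.e j).map_nhds_eq h.1, ← isOpen_compl_singleton.isOpenEmbedding_subtypeVal.map_nhds_eq,
    map_map]
  exact (hQ.and (ev_inU h)).mono fun y' a => ⟨y', a.1, a.2, rfl⟩

theorem off_of {y : Pc x} (h : InU A j y) : A.e j y ∈ off A x j :=
  ⟨map_src h.1, fun e => y.2 (((A.e j).left_inv h.1).symm.trans e)⟩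

variable {P : Loc A l g n d} {z : Dat C A.N n} {hx : z.x ∈ P.V} {ρ ρ' : Tup g n}
  {F F' : P.ι → Fm A (Mn n)} {G G' : ℂ → Mn n} {κ : ℂ} {r : ℝ} {h1 : 1 < r} {h2 : r ≤ A.R}

theorem gd_an [T2Space C] (hz : Good (A.res r h1 h2) l z) {y : Pc z.x} (h : InU A j y) :
    AnalyticAt ℂ (z.a j) (A.e j y) :=
  (hz.hol j).analyticAt ((off_open (A := A.res r h1 h2) z.x j).mem_nhds (InU.off h y.2))

theorem gd_chg [T2Space C] (hz : Good (A.res r h1 h2) l z) (lam : z.lam = 1) {y : Pc z.x}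
    (h : InU A i y) (h' : InU A j y) {Φ : ℂ → Mn n} (e : PF (z.a j) Φ (A.e j y)) :
    PF (z.a i) (fun v => z.g i j v * Φ (A.tr i j v)) (A.e i y) :=
  PF.chg (A := A.res r h1 h2) hz lam (InU.O h h') (off_of h).2
    (by rw [res_tr, tr_e h.1]; exact e)

theorem gd_det (hz : Good (A.res r h1 h2) l z) (h : InU A i x) (h' : InU A j x) :
    (z.g i j (A.e i x)).det = l i j (A.e i x) := hz.det i j _ (InU.O h h')

theorem gd_mul (hz : Good (A.res r h1 h2) l z) {k : Fin A.N} (h : InU A i x) (h' : InU A j x)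
    (h'' : InU A k x) : z.g i k (A.e i x) = z.g i j (A.e i x) * z.g j k (A.e j x) := by
  have := hz.cc.mul i j k _ (InU.O h h') (InU.O h h'')
  rwa [res_tr, tr_e h.1] at this

theorem gd_one (hz : Good (A.res r h1 h2) l z) (h : InU A i x) : z.g i i (A.e i x) = 1 :=
  hz.cc.one i _ (unit_r h1 h.2)

theorem u_ne (hx : x ∈ P.V) {y : Pc x} (h : InU A j y) : P.u x j (A.e j y) ≠ 0 :=
  P.un x hx j _ (off_of h)

theorem u_law (hx : x ∈ P.V) {y : Pc x} (h : InU A i y) (h' : InU A j y) :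
    P.u x i (A.e i y) = l i j (A.e i y) * P.u x j (A.e j y) := by
  rw [P.ul x hx i j _ (mem_O h.1 h'.1) (off_of h).2, tr_e h.1]

theorem u_ev [T2Space C] (hx : x ∈ P.V) {y : Pc x} (h : InU A j y) :
    ∀ᶠ w in 𝓝 (A.e j y), ContinuousAt (P.u x j) w := by
  filter_upwards [(off_open x j).mem_nhds (off_of h)] with w hw
  exact ((P.uc j).comp (Continuous.prodMk_right x).continuousOn fun v hv => ⟨hx, hv⟩).continuousAt
    ((off_open x j).mem_nhds hw)

theorem ev_U (hx : x ∈ P.V) {y : Pc x} {k : P.ι} (h : fib hx y ∈ P.U k) :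
    ∀ᶠ y' in 𝓝 y, fib hx y' ∈ P.U k :=
  (fib hx).continuous.continuousAt.eventually ((P.cy.opn k).mem_nhds h)

/-- frames with determinant `κ u` -/
structure Fk (P : Loc A l g n d) (z : Dat C A.N n) (hx : z.x ∈ P.V) (ρ : Tup g n)
    (F : P.ι → Fm A (Mn n)) (κ : ℂ) : Prop where
  pf : ∀ (y : Pc z.x) k j, fib hx y ∈ P.U k → InU A j y → PF (z.a j) (F k j) (A.e j y)
  det : ∀ (y : Pc z.x) k j, fib hx y ∈ P.U k → InU A j y →
    (F k j (A.e j y)).det = κ * P.u z.x j (A.e j y)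
  chg : ∀ (y : Pc z.x) k j j', fib hx y ∈ P.U k → InU A j y → InU A j' y →
    F k j (A.e j y) = z.g j j' (A.e j y) * F k j' (A.e j' y)
  coc : ∀ (y : Pc z.x) k m j, fib hx y ∈ P.U k → fib hx y ∈ P.U m → InU A j y →
    F m j (A.e j y) = F k j (A.e j y) * wv ρ (P.c k m (fib hx y))

theorem fk_iff : Fk P z hx ρ F 1 ↔ Frm P z hx ρ F :=
  ⟨fun h => ⟨h.pf, fun y k j a b => (h.det y k j a b).trans (one_mul _), h.chg, h.coc⟩,
    fun h => ⟨h.pf, fun y k j a b => (h.det y k j a b).trans (one_mul _).symm, h.chg, h.coc⟩⟩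

theorem Fk.det_ev [T1Space C] (h : Fk P z hx ρ F κ) {y : Pc z.x} {k : P.ι} (a : fib hx y ∈ P.U k)
    (b : InU A j y) : ∀ᶠ w in 𝓝 (A.e j y), (F k j w).det = κ * P.u z.x j w :=
  (ev_pt b (ev_U hx a)).mono fun _ ⟨y', p, q, e⟩ => e ▸ h.det y' k j p q

theorem Fk.ne (h : Fk P z hx ρ F κ) (κ0 : κ ≠ 0) {y : Pc z.x} {k : P.ι} (a : fib hx y ∈ P.U k)
    (b : InU A j y) : (F k j (A.e j y)).det ≠ 0 := by
  rw [h.det y k j a b]
  exact mul_ne_zero κ0 (u_ne hx b)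

theorem Fk.mul (h : Fk P z hx ρ F κ) {T : Mn n} (hT : T.det ≠ 0) (e : Cj T ρ ρ') :
    Fk P z hx ρ' (fun k j w => F k j w * T) (T.det * κ) :=
  ⟨fun y k j a b => (h.pf y k j a b).mul hT, fun y k j a b => by
    rw [Matrix.det_mul, h.det y k j a b]; ring, fun y k j j' a b c => by
    rw [h.chg y k j j' a b c, mul_assoc], fun y k m j a b c => by
    rw [h.coc y k m j a b c, mul_assoc, cj_semi e hT, mul_assoc]⟩

/-- the point of the tangential neighbourhood over `x` -/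
abbrev qq (hx : x ∈ P.V) (L : {L : ℂ | L.re < Real.log P.δ}) : Nd P.V P.δ := ⟨(x, L.1), hx, L.2⟩

theorem cont_qq (hx : x ∈ P.V) : Continuous (qq hx) := by unfold qq; fun_prop

theorem Fk.ind (h : Fk P z hx ρ F κ) (q : Nd P.V P.δ) (e : q.1.1 = z.x) {k m : P.ι}
    (a : P.ν q ∈ P.U k) (b : P.ν q ∈ P.U m) :
    F k P.a (A.e P.a z.x + exp q.1.2) * wv ρ (P.b k q) =
      F m P.a (A.e P.a z.x + exp q.1.2) * wv ρ (P.b m q) := by
  have := h.coc (P.pc q e) k m P.a (P.fib_pc q e hx ▸ a) (P.fib_pc q e hx ▸ b) (P.ν_e q).1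
  rw [P.fib_pc q e hx, show A.e P.a (P.pc q e) = _ from (P.ν_e q).2, e] at this
  rw [this, P.fs.tr k m q a b, smul_eq_mul, wv_mul, mul_assoc]

theorem s_ne (hn : n ≠ 0) (q : Nd P.V P.δ) : P.s q ≠ 0 := fun e => by
  have := P.sp q
  rw [e, zero_pow hn, ← (P.ν_e q).2] at this
  exact u_ne q.2.1 (y := P.pc q rfl) (P.ν_e q).1 this.symm

/-- the model frame -/
def mdl (P : Loc A l g n d) (z : Dat C A.N n) (G : ℂ → Mn n) (q : Nd P.V P.δ) : Mn n :=
  P.s q • (G (A.e P.a z.x + exp q.1.2) * ex z.R (-q.1.2))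

theorem det_mdl (hz : Good (A.res r h1 h2) l z) (hg : Gen d z.R) (hG : IsG A z P.a P.δ G)
    (q : Nd P.V P.δ) (e : q.1.1 = z.x) :
    (mdl P z G q).det = (z.σ P.a).det * P.u z.x P.a (A.e P.a z.x + exp q.1.2) := by
  have hx : z.x ∈ P.V := e ▸ q.2.1
  rw [mdl, Matrix.det_smul, Fintype.card_fin, P.sp, det_fr hz hg (InU.res (P.inU hx))
    (P.ball_res hx h1) hG (e ▸ P.mem_ball q), e, mul_comm]

theorem Fk.model [T2Space C] (hn : n ≠ 0) (hz : Good (A.res r h1 h2) l z) (hg : Gen d z.R)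
    (hG : IsG A z P.a P.δ G) (h : Fk P z hx ρ F κ) (κ0 : κ ≠ 0) :
    ∃ T : Mn n, (z.σ P.a).det * T.det = κ ∧ ∀ (q : Nd P.V P.δ) k, q.1.1 = z.x → P.ν q ∈ P.U k →
      F k P.a (A.e P.a z.x + exp q.1.2) * wv ρ (P.b k q) = mdl P z G q * T := by
  classical
  choose kk hk using fun q => P.cy.cov (P.ν q)
  set c := A.e P.a z.x
  have σ0 := hz.fr P.a (InU.res (P.inU hx))
  have ho : IsOpen {L : ℂ | L.re < Real.log P.δ} := isOpen_lt continuous_re continuous_const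
  let s' : ℂ → ℂ := fun L => if a : L.re < Real.log P.δ then P.s (qq hx ⟨L, a⟩) else 0
  have s1 : ContinuousOn s' {L : ℂ | L.re < Real.log P.δ} :=
    continuousOn_iff_continuous_restrict.2 ((P.sc.comp (cont_qq hx)).congr fun L => by
      simp only [s', restrict_apply, dif_pos (show L.1.re < _ from L.2)]; rfl)
  have u0 : ∀ L, P.u z.x P.a (c + exp (qq hx L).1.2) ≠ 0 := fun L =>
    (P.ν_e (qq hx L)).2 ▸ u_ne hx (y := P.pc (qq hx L) rfl) (P.ν_e (qq hx L)).1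
  have m0 : ∀ L, (mdl P z G (qq hx L)).det ≠ 0 := fun L => by
    rw [det_mdl hz hg hG _ rfl]
    exact mul_ne_zero σ0 (u0 L)
  let T : {L : ℂ | L.re < Real.log P.δ} → Mn n := fun L => (mdl P z G (qq hx L))⁻¹ *
    (F (kk (qq hx L)) P.a (c + exp L) * wv ρ (P.b (kk (qq hx L)) (qq hx L)))
  have lc : IsLocallyConstant T := (IsLocallyConstant.iff_eventually_eq T).2 fun L => by
    set q := qq hx L
    have e0 : A.e P.a (P.pc q rfl) = c + exp L := (P.ν_e q).2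
    have a0 : fib hx (P.pc q rfl) ∈ P.U (kk q) := P.fib_pc q rfl hx ▸ hk q
    have b1 : ∀ᶠ v in 𝓝 (c + exp L), ContinuousAt (br c L) v ∧ (br c L v).re < Real.log P.δ :=
      ((br_an c L).eventually_analyticAt.mono fun _ a => a.continuousAt).and
        ((br_an c L).continuousAt.eventually (ho.mem_nhds (by rw [br_self]; exact L.2)))
    have p1 : PF (z.a P.a) (fun v => s' (br c L v) • (G v * ex z.R (-br c L v))) (c + exp L) :=
      ((IsG.ph_br hz hg (InU.res (P.inU hx)) (P.ball_res hx h1) hG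
      (P.mem_ball q)).pf).smul (t := fun v => s' (br c L v))
      (b1.mono fun v a => (s1.continuousAt (ho.mem_nhds a.2)).comp a.1)
    have k1 : ∀ v (a : (br c L v).re < Real.log P.δ), v ≠ c →
        s' (br c L v) • (G v * ex z.R (-br c L v)) = mdl P z G (qq hx ⟨_, a⟩) := fun v a b => by
      simp only [mdl, s', dif_pos a, exp_br b, c, add_sub_cancel]
    have p2 := (e0 ▸ h.pf _ _ _ a0 (P.ν_e q).1).mul (wv_det_ne ρ (P.b (kk q) q))
    have n0 : c + exp L ≠ c := by simp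
    have := p1.lc' hn p2 (by rw [k1 _ b1.self_of_nhds.2 n0]; exact m0 _) (div_ne_zero κ0 σ0) (by
      filter_upwards [e0 ▸ h.det_ev a0 (P.ν_e q).1, b1, eventually_ne_nhds n0] with v a b b'
      rw [k1 _ b.2 b', det_mdl hz hg hG _ rfl, Matrix.det_mul, a, wv_det, exp_br b',
        add_sub_cancel]
      field_simp)
    have c1 : Continuous fun L : {L : ℂ | L.re < Real.log P.δ} => c + exp L := by fun_prop
    filter_upwards [c1.continuousAt.eventually this,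
      continuous_subtype_val.continuousAt.eventually (br_exp c L),
      (cont_qq hx).continuousAt.eventually (P.fs.lc (kk q) q (hk q)),
      (P.ν.continuous.comp (cont_qq hx)).continuousAt.eventually ((P.cy.opn _).mem_nhds (hk q))]
      with L' a b b' b''
    have k2 : ∀ L' : {L : ℂ | L.re < Real.log P.δ}, br c L (c + exp L') = L' →
        s' (br c L (c + exp L')) • (G (c + exp L') * ex z.R (-br c L (c + exp L'))) =
          mdl P z G (qq hx L') := fun L' a => by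
      rw [a]
      simp only [mdl, s', dif_pos (show L'.1.re < _ from L'.2), c]
    rw [k2 L' b, k2 L (br_self c L)] at a
    simp only [T]
    rw [h.ind (qq hx L') rfl (hk _) b'', b']
    exact a
  haveI : PreconnectedSpace {L : ℂ | L.re < Real.log P.δ} :=
    isPreconnected_iff_preconnectedSpace.1 (convex_halfSpace_re_lt _).isPreconnected
  have key : ∀ L k, P.ν (qq hx L) ∈ P.U k → F k P.a (c + exp L) * wv ρ (P.b k (qq hx L)) =
      mdl P z G (qq hx L) * T L := fun L k a => by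
    rw [mul_inv_can (m0 L)]
    exact h.ind (qq hx L) rfl a (hk _)
  let L0 : {L : ℂ | L.re < Real.log P.δ} := ⟨(Real.log P.δ - 1 : ℝ), by simp⟩
  refine ⟨T L0, ?_, fun q k e a => ?_⟩
  · have := congrArg Matrix.det (key L0 _ (hk _))
    have e0 : A.e P.a (P.pc (qq hx L0) rfl) = c + exp L0 := (P.ν_e _).2
    rw [Matrix.det_mul, Matrix.det_mul, wv_det, det_mdl hz hg hG _ rfl, ← e0, h.det _ _ _
      (P.fib_pc (qq hx L0) rfl hx ▸ hk _) (P.ν_e _).1, e0] at this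
    exact mul_right_cancel₀ (u0 L0) (by linear_combination -this)
  · obtain ⟨⟨x, L⟩, hq⟩ := q
    obtain rfl : x = z.x := e
    rw [lc.apply_eq_of_preconnectedSpace L0 ⟨L, hq.2⟩]
    exact key ⟨L, hq.2⟩ k a

/-- strict frames -/
structure Str (P : Loc A l g n d) (z : Dat C A.N n) (hx : z.x ∈ P.V) (ρ : Tup g n)
    (F : P.ι → Fm A (Mn n)) (G : ℂ → Mn n) : Prop extends Fk P z hx ρ F (z.σ P.a).det where
  isG : IsG A z P.a P.δ G
  nrm : ∀ (q : Nd P.V P.δ) k, q.1.1 = z.x → P.ν q ∈ P.U k →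
    F k P.a (A.e P.a z.x + exp q.1.2) * wv ρ (P.b k q) = mdl P z G q

theorem ex_q (hx : x ∈ P.V) : ∃ (q : Nd P.V P.δ) (k : P.ι), q.1.1 = x ∧ P.ν q ∈ P.U k :=
  let ⟨k, hk⟩ := P.cy.cov (P.ν (qq hx ⟨(Real.log P.δ - 1 : ℝ), by simp⟩))
  ⟨_, k, rfl, hk⟩

theorem mdl_ne (hz : Good (A.res r h1 h2) l z) (hg : Gen d z.R) (hG : IsG A z P.a P.δ G)
    (q : Nd P.V P.δ) (e : q.1.1 = z.x) : (mdl P z G q).det ≠ 0 := by
  have hx : z.x ∈ P.V := e ▸ q.2.1
  rw [det_mdl hz hg hG q e]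
  refine mul_ne_zero (hz.fr P.a (InU.res (P.inU hx))) ?_
  have := u_ne hx (y := P.pc q e) (P.ν_e q).1
  rwa [show A.e P.a (P.pc q e) = _ from (P.ν_e q).2, e] at this

theorem Fk.str [T2Space C] (hn : n ≠ 0) (hz : Good (A.res r h1 h2) l z) (hg : Gen d z.R)
    (hG : IsG A z P.a P.δ G) (h : Fk P z hx ρ F κ) (κ0 : κ ≠ 0) :
    ∃ T : Mn n, T.det ≠ 0 ∧ (∀ (q : Nd P.V P.δ) k, q.1.1 = z.x → P.ν q ∈ P.U k →
      F k P.a (A.e P.a z.x + exp q.1.2) * wv ρ (P.b k q) = mdl P z G q * T) ∧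
      ∀ ρ', Cj T⁻¹ ρ ρ' → Str P z hx ρ' (fun k j w => F k j w * T⁻¹) G := by
  obtain ⟨T, a, b⟩ := h.model hn hz hg hG κ0
  have T0 : T.det ≠ 0 := right_ne_zero_of_mul (a ▸ κ0)
  refine ⟨T, T0, b, fun ρ' e => ⟨?_, hG, fun q k p p' => ?_⟩⟩
  · have := h.mul (det_inv_ne T0) e
    rwa [← a, mul_left_comm, ← Matrix.det_mul, inv_mul' T0, Matrix.det_one, mul_one] at this
  · rw [mul_assoc, ← cj_semi e (det_inv_ne T0), ← mul_assoc, b q k p p', mul_assoc, mul_inv' T0,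
      mul_one]

theorem str_of_rel [T2Space C] (hn : n ≠ 0) (h : Rel P z ρ) :
    ∃ (hx : z.x ∈ P.V) (F : P.ι → Fm A (Mn n)) (G : ℂ → Mn n), Str P z hx ρ F G := by
  obtain ⟨⟨⟨r, h1, h2, hz⟩, -, hg⟩, hx, F, hF, G, hG, hN⟩ := h
  obtain ⟨T, T0, a, b⟩ := (fk_iff.2 hF).str hn hz hg hG one_ne_zero
  obtain ⟨q, k, e, hk⟩ := ex_q (P := P) hx
  obtain ⟨f, hf⟩ := hN q k e hk
  have e1 : T = (f / P.s q) • (1 : Mn n) := by
    rw [← inv_mul_can (mdl_ne hz hg hG q e) T, ← a q k e hk, hf, ← inv_mul' (mdl_ne hz hg hG q e),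
      ← mul_smul_comm (f / P.s q), mdl, smul_smul, div_mul_cancel₀ _ (s_ne hn q)]
  refine ⟨hx, _, G, b ρ (cj_symm ((cj_iff T0).2 fun s => ?_) T0)⟩
  rw [e1, mul_smul_comm, smul_mul_assoc, mul_one, one_mul]

theorem Str.rel (hn : n ≠ 0) (hp : Pre A l d z) (h : Str P z hx ρ F G) : Rel P z ρ := by
  obtain ⟨r, h1, h2, hz⟩ := hp.good
  have σ0 := hz.fr P.a (InU.res (P.inU hx))
  obtain ⟨t, ht⟩ := IsAlgClosed.exists_pow_nat_eq ((z.σ P.a).det)⁻¹ (Nat.pos_of_ne_zero hn)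
  have dt : (t • (1 : Mn n)).det = ((z.σ P.a).det)⁻¹ := by simp [ht]
  have t0 : (t • (1 : Mn n)).det ≠ 0 := dt ▸ inv_ne_zero σ0
  have := h.toFk.mul t0 (ρ' := ρ) ((cj_iff t0).2 fun s => by simp)
  rw [dt, inv_mul_cancel₀ σ0] at this
  refine ⟨hp, hx, _, fk_iff.1 this, G, h.isG, fun q k a b => ⟨t * P.s q, ?_⟩⟩
  beta_reduce
  rw [mul_smul_comm, mul_one, smul_mul_assoc, h.nrm q k a b, mdl, smul_smul]

theorem Str.cwd (hz : Good (A.res r h1 h2) l z) (hg : Gen d z.R) (h : Str P z hx ρ F G) :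
    wv ρ (cwd g) = mon d z.R := by
  obtain ⟨q, k, e, hk⟩ := ex_q (P := P) hx
  have a := h.nrm q.T k e (P.ν_T q ▸ hk)
  have e1 : exp q.T.1.2 = exp q.1.2 := exp_periodic _
  have e2 : mdl P z G q.T = mdl P z G q * mon d z.R := by
    rw [mdl, mdl, e1, P.sT, mon_eq, show -q.T.1.2 = -q.1.2 + -(2 * π * I) from neg_add _ _, ex_add,
      smul_mul_smul_comm, mul_comm (P.s q), mul_assoc (G _)]
  rw [P.per k q hk, wv_mul, ← mul_assoc, e1, h.nrm q k e hk, e2] at a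
  rw [← inv_mul_can (mdl_ne hz hg h.isG q e) (wv ρ _), a, inv_mul_can (mdl_ne hz hg h.isG q e)]

/-- a matrix as an element of the special linear group -/
def sl (X : Mn n) : Matrix.SpecialLinearGroup (Fin n) ℂ :=
  by classical exact if h : X.det = 1 then ⟨X, h⟩ else 1

theorem sl_val {X : Mn n} (h : X.det = 1) : (sl X).1 = X := congrArg Subtype.val (dif_pos h)

theorem frm_ex [T2Space C] [ConnectedSpace C] (hn : n ≠ 0) (hz : Good (A.res r h1 h2) l z)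
    (lam : z.lam = 1) (hx : z.x ∈ P.V) : ∃ ρ F, Fk P z hx ρ F 1 := by
  classical
  haveI := pcs A z.x
  haveI := lpcs A z.x
  have : ∀ y : Pc z.x, ∃ (j : Fin A.N) (Φ : ℂ → Mn n), ∀ᶠ y' : Pc z.x in 𝓝 y, InU A j y' ∧
      PF (z.a j) Φ (A.e j y') ∧ (Φ (A.e j y')).det = P.u z.x j (A.e j y') := fun y => by
    obtain ⟨j, hj⟩ := A.cov y
    obtain ⟨t, ht⟩ := IsAlgClosed.exists_pow_nat_eq (P.u z.x j (A.e j y)) (Nat.pos_of_ne_zero hn)
    have dt : (t • (1 : Mn n)).det = P.u z.x j (A.e j y) := by simp [ht]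
    obtain ⟨Φ, a, -, b⟩ := PF.ex hn (gd_an hz hj) (u_ev hx hj) (dt ▸ u_ne hx hj) dt
    exact ⟨j, Φ, (ev_inU hj).and ((tend_e hj).eventually (a.ev.and b))⟩
  choose J Φ hΦ using this
  let U' : Pc z.x → Set (Pc z.x) := fun y => interior {y' | InU A (J y) y' ∧
    PF (z.a (J y)) (Φ y) (A.e (J y) y') ∧ (Φ y (A.e (J y) y')).det = P.u z.x (J y) (A.e (J y) y')}
  have m0 : ∀ y, y ∈ U' y := fun y => mem_interior_iff_mem_nhds.2 (hΦ y)
  have m1 : ∀ {y t}, t ∈ U' y → InU A (J y) t := fun a => (interior_subset a).1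
  have m2 : ∀ {y t}, t ∈ U' y → (Φ y (A.e (J y) t)).det = P.u z.x (J y) (A.e (J y) t) :=
    fun a => (interior_subset a).2.2
  have m3 : ∀ {y t}, t ∈ U' y → (Φ y (A.e (J y) t)).det ≠ 0 := fun a => m2 a ▸ u_ne hx (m1 a)
  let Ψ : Pc z.x → Fm A (Mn n) := fun y j w => z.g j (J y) w * Φ y (A.tr j (J y) w)
  have p0 : ∀ {y t : Pc z.x} {j}, InU A j t → Ψ y j (A.e j t) = z.g j (J y) (A.e j t) * Φ y (A.e (J y) t) :=
    fun a => by simp only [Ψ, tr_e a.1]
  have p1 : ∀ {y t j}, t ∈ U' y → InU A j t.1 → PF (z.a j) (Ψ y j) (A.e j t) := fun {y t j} a b =>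
    gd_chg hz lam b (m1 a) (interior_subset a).2.1
  have p2 : ∀ {y t j}, t ∈ U' y → InU A j t.1 → (Ψ y j (A.e j t)).det = P.u z.x j (A.e j t) :=
    fun {y t j} a b => by
      rw [p0 b, Matrix.det_mul, m2 a, gd_det hz b (m1 a), u_law hx b (m1 a)]
  have p3 : ∀ {y t j j'}, t ∈ U' y → InU A j t.1 → InU A j' t.1 →
      Ψ y j (A.e j t) = z.g j j' (A.e j t) * Ψ y j' (A.e j' t) := fun {y t j j'} a b b' => by
    rw [p0 b, p0 b', gd_mul hz b b' (m1 a), mul_assoc]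
  let c0 : Pc z.x → Pc z.x → Pc z.x → Mn n := fun y y' t =>
    (Φ y (A.e (J y) t))⁻¹ * Ψ y' (J y) (A.e (J y) t)
  have c1 : ∀ {y y' t}, t ∈ U' y → t ∈ U' y' → (sl (c0 y y' t)).1 = c0 y y' t := fun a b =>
    sl_val (by rw [Matrix.det_mul, p2 b (m1 a), ← m2 a, ← Matrix.det_mul, inv_mul' (m3 a),
      Matrix.det_one])
  have c2 : ∀ {y y' t j}, t ∈ U' y → t ∈ U' y' → InU A j t.1 →
      Ψ y j (A.e j t) * c0 y y' t = Ψ y' j (A.e j t) := fun a b e => by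
    rw [p0 e, mul_assoc, mul_inv_can (m3 a), ← p3 b e (m1 a)]
  have hc : Cy U' fun y y' t => sl (c0 y y' t) := by
    refine ⟨⟨fun _ => isOpen_interior, fun y => ⟨y, m0 y⟩⟩, fun y y' t ht => ?_,
      fun y y' y'' t a b e => Subtype.ext ?_⟩
    · refine ((tend_e (m1 ht.1)).eventually (((interior_subset ht.1).2.1).lc' hn (p1 ht.2 (m1 ht.1))
        (m3 ht.1) one_ne_zero ?_)).mono fun _ e => congrArg sl e
      refine (ev_pt (m1 ht.1) ((isOpen_interior.inter isOpen_interior).eventually_mem ht)).mono ?_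
      rintro _ ⟨t', a, b, rfl⟩
      rw [p2 a.2 b, m2 a.1, one_mul]
    · rw [Matrix.SpecialLinearGroup.coe_mul, c1 a b, c1 b e, c1 a e, mul_assoc, c2 b e (m1 a)]
  obtain ⟨ρ, β, b1, b2⟩ := induced (cyx P hx) (P.univ z.x hx) hc
  have w0 : ∀ w, wv (fun s => ρ (FreeGroup.of s)) w = (ρ w).1 := fun w =>
    congrArg Subtype.val (DFunLike.congr_fun (FreeGroup.ext_hom _ ρ fun s => by simp) w)
  let F : P.ι → Fm A (Mn n) := fun k j w => if h : (A.e j).symm w ∈ ({z.x}ᶜ : Set C) then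
    Ψ ⟨_, h⟩ j w * (β ⟨_, h⟩ k ⟨_, h⟩).1 else 0
  have f0 : ∀ {t : Pc z.x} {j} k, InU A j t → F k j (A.e j t) = Ψ t j (A.e j t) * (β t k t).1 :=
    fun {t j} k a => by
      have e := (A.e j).left_inv a.1
      simp only [F, e, dif_pos t.2]
  have f1 : ∀ {y t : Pc z.x} {j k}, t ∈ U' y → fib hx t ∈ P.U k → InU A j t →
      F k j (A.e j t) = Ψ y j (A.e j t) * (β y k t).1 := fun {y t j k} a b e => by
    have := b2 y k t k t a b (m0 t) b
    rw [(cyx P hx).one b, map_one, mul_one] at this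
    rw [this, Matrix.SpecialLinearGroup.coe_mul, c1 a (m0 t), ← mul_assoc, c2 a (m0 t) e, f0 k e]
  refine ⟨fun s => ρ (FreeGroup.of s), F, fun y k j a b => ?_, fun y k j a b => ?_,
    fun y k j j' a b b' => ?_, fun y k m j a a' b => ?_⟩
  · refine ((p1 (m0 y) b).mul (M := (β y k y).1) (by simp)).congr EventuallyEq.rfl ?_
    refine (ev_pt b (((isOpen_interior.eventually_mem (m0 y)).and (ev_U hx a)).and
      (b1 y k y ⟨m0 y, a⟩))).mono ?_
    rintro _ ⟨t, ⟨⟨p, p'⟩, p''⟩, q, rfl⟩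
    beta_reduce
    rw [f1 p p' q, p'']
  · rw [f0 k b, Matrix.det_mul, p2 (m0 y) b, (β y k y).2, mul_one, one_mul]
  · rw [f0 k b, f0 k b', p3 (m0 y) b b', mul_assoc]
  · have := b2 y k y m y (m0 y) a (m0 y) a'
    rw [hc.one (m0 y), one_mul] at this
    rw [f0 k b, f0 m b, w0, mul_assoc (Ψ y j _), ← this]
    rfl

theorem str_ex [T2Space C] [ConnectedSpace C] (hn : n ≠ 0) (hp : Pre A l d z) (hx : z.x ∈ P.V) :
    ∃ ρ F G, Str P z hx ρ F G := by
  obtain ⟨r, h1, h2, hz⟩ := hp.good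
  obtain ⟨ρ, F, h⟩ := frm_ex hn hz hp.lam hx
  obtain ⟨G, hG⟩ := isG_ex hz hp.gen (InU.res (P.inU hx)) (P.ball_res hx h1)
  obtain ⟨T, T0, -, b⟩ := h.str hn hz hp.gen hG one_ne_zero
  obtain ⟨ρ', e⟩ := cj_ex ρ (det_inv_ne T0)
  exact ⟨ρ', _, G, b ρ' e⟩

theorem Std.ne (hS : Std A l n d) : n ≠ 0 := by have := hS.two; omega

/-- **EXR** -/
theorem exr (hS : Std A l n d) (P : Loc A l g n d) : EXR P := by
  haveI := hS.t2
  haveI := hS.conn
  refine ⟨fun z hp hx => ?_, fun z ρ h => ?_⟩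
  · obtain ⟨ρ, F, G, h⟩ := str_ex (Std.ne hS) hp hx
    exact ⟨ρ, h.rel (Std.ne hS) hp⟩
  · obtain ⟨hx, F, G, a⟩ := str_of_rel (Std.ne hS) h
    obtain ⟨r, h1, h2, hz⟩ := h.1.good
    exact a.cwd hz h.1.gen

end Vale.Agent.P275RF
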