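import Vale.Agent.P275RL.Pf
import Vale.Agent.P275RH.Mer

/-!
# P275, Riemann-Hilbert in families: topological lemmas
-/

set_option linter.all false

open scoped Topology Real
open Filter Set Metric Complex
open Vale.Agent.P275GC (At)
open Vale.Agent.P275ST (Pc)
open Vale.Agent.P275RH Vale.Agent.P275RL Vale.Agent.P275Z

noncomputable section

namespace Vale.Agent.P275RF

section gen

variable {X ι κ G H : Type} [TopologicalSpace X] [Group G] [Group H] {U : ι → Set X}
  {c : ι → ι → X → G}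

/-- propagation along paths -/
theorem prop_hol (h : Cy U c) {Z : X → ι → G → Prop}
    (h1 : ∀ y k m w, y ∈ U k → y ∈ U m → (Z y k (c k m y * w) ↔ Z y m w))
    (h2 : ∀ y k, y ∈ U k → ∀ᶠ y' in 𝓝 y, ∀ w, Z y' k w ↔ Z y k w) {x y : X} (γ : PQ x y) :
    ∀ k m w, x ∈ U k → y ∈ U m → Z x k w → Z y m (hol U c γ k m * w) := by
  choose a ha using h.cov
  have ho : Oc fun y => interior {y' | y' ∈ U (a y) ∧ ∀ w, Z y' (a y) w ↔ Z y (a y) w} :=
    ⟨fun _ => isOpen_interior, fun y => ⟨y, mem_interior_iff_mem_nhds.2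
      (((h.opn _).eventually_mem (ha y)).and (h2 y _ (ha y)))⟩⟩
  refine ho.ind (P := fun x y γ => ∀ k m w, x ∈ U k → y ∈ U m → Z x k w →
    Z y m (hol U c γ k m * w)) (fun z x y γ hγ k m w hk hm e => ?_)
    (fun x y z γ δ p q k m w hk hm e => ?_) γ
  · have a0 := interior_subset (γ.source ▸ hγ 0)
    have a1 := interior_subset (γ.target ▸ hγ 1)
    rw [h.hol_loc γ (fun t => (interior_subset (hγ t)).1) hk hm, mul_assoc, h1 _ _ _ _ hm a1.1,
      a1.2, ← a0.2, h1 _ _ _ _ a0.1 hk]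
    exact e
  · rw [h.hol_trans (ha y), mul_assoc]
    exact q _ _ _ (ha y) hm (p _ _ _ hk (ha y) e)

/-- propagation for a universal cocycle -/
theorem prop [PathConnectedSpace X] (h : Cy U c)
    (hs : ∀ y k (hk : y ∈ U k), Function.Surjective (h.rep hk)) {Z : X → ι → G → Prop}
    (h1 : ∀ y k m w, y ∈ U k → y ∈ U m → (Z y k (c k m y * w) ↔ Z y m w))
    (h2 : ∀ y k, y ∈ U k → ∀ᶠ y' in 𝓝 y, ∀ w, Z y' k w ↔ Z y k w) {x : X} {k : ι} {w : G}
    (hk : x ∈ U k) (h0 : Z x k w) (y : X) (m : ι) (hm : y ∈ U m) (v : G) : Z y m v := by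
  have a := prop_hol h h1 h2 (.mk (PathConnectedSpace.somePath x y)) k m w hk hm h0
  obtain ⟨γ, e⟩ := hs y m hm (v * (hol U c (.mk (PathConnectedSpace.somePath x y)) k m * w)⁻¹)
  have b := prop_hol h h1 h2 γ.toPath m m _ hm hm a
  rwa [← h.rep_apply hm, e, inv_mul_cancel_right] at b

/-- the group with the two sided action -/
@[ext] structure Bi (G : Type) : Type where
  v : G

instance : MulAction (G × G) (Bi G) where
  smul p x := ⟨p.1 * x.v * p.2⁻¹⟩
  one_smul x := Bi.ext (by show 1 * x.v * 1⁻¹ = x.v; simp)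
  mul_smul p q x := Bi.ext (by
    show p.1 * q.1 * x.v * (p.2 * q.2)⁻¹ = p.1 * (q.1 * x.v * q.2⁻¹) * p.2⁻¹
    group)

/-- every cocycle is induced from a universal one -/
theorem induced [PathConnectedSpace X] [LocallyPathConnectedSpace X] (h : Cy U c)
    (hs : ∀ y k (hk : y ∈ U k), Function.Bijective (h.rep hk)) {U' : κ → Set X}
    {c' : κ → κ → X → H} (h' : Cy U' c') : ∃ (ρ : G →* H) (β : κ → ι → X → H),
      (∀ q k, Lc (U' q ∩ U k) (β q k)) ∧ ∀ q k q' m y, y ∈ U' q → y ∈ U k → y ∈ U' q' → y ∈ U m →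
        β q k y * ρ (c k m y) = c' q q' y * β q' m y := by
  obtain ⟨x⟩ : Nonempty X := inferInstance
  obtain ⟨k, hk⟩ := h.cov x
  obtain ⟨q, hq⟩ := h'.cov x
  let e := MulEquiv.ofBijective _ (hs x k hk)
  let ρ : G →* H := (h'.rep hq).comp e.symm.toMonoidHom
  have ho := h'.toOc.inter h.toOc
  have c1 := h'.pull (f := .id X) (r := Prod.fst) ho fun _ _ a => a.1
  have c2 := (h.map ρ).pull (f := .id X) (r := Prod.snd) ho fun _ _ a => a.2
  have id : ∀ γ : PQ x x, γ.map (.id X) = γ := fun γ => by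
    obtain ⟨γ, rfl⟩ := Path.Homotopic.Quotient.mk_surjective γ
    rfl
  have hx : x ∈ U' (q, k).1 ∩ U (q, k).2 := ⟨hq, hk⟩
  obtain ⟨s, s1, -⟩ := (c1.prod c2).exists_fs (M := Bi H) (i := (q, k)) hx (m := ⟨1⟩)
    fun γ => by
      rw [Cy.rep_apply, c1.hol_prod c2 _ hx hx,
        h'.hol_pull (f := .id X) (r := Prod.fst) ho (fun _ _ a => a.1) _ hx hx,
        (h.map ρ).hol_pull (f := .id X) (r := Prod.snd) ho (fun _ _ a => a.2) _ hx hx,
        id]
      have : ρ (hol U c γ.toPath k k) = hol U' c' γ.toPath q q :=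
        congrArg (h'.rep hq) (e.symm_apply_apply γ)
      refine Bi.ext ?_
      show hol U' c' γ.toPath q q * 1 * (hol U (fun i j x => ρ (c i j x)) γ.toPath k k)⁻¹ = 1
      rw [h.hol_map ρ _ hk hk, this, mul_one, mul_inv_cancel]
  refine ⟨ρ, fun q k y => (s (q, k) y).v, fun q k y hy => (s1.lc (q, k) y hy).mono fun _ e =>
    congrArg Bi.v e, fun q k q' m y a b a' b' => ?_⟩
  have : (s (q, k) y).v = c' q q' y * (s (q', m) y).v * (ρ (c k m y))⁻¹ :=
    congrArg Bi.v (s1.tr (q, k) (q', m) y ⟨a, b⟩ ⟨a', b'⟩)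
  beta_reduce
  rw [this, inv_mul_cancel_right]

end gen

variable {C : Type} [TopologicalSpace C] {n g : ℕ} {A : At C} {l : P275NA.Cy A ℂ} {d : ℤ}

/-- the charted space of an atlas -/
@[reducible] def cs (A : At C) : ChartedSpace ℂ C :=
  ⟨range A.e, fun x => A.e (A.cov x).choose, fun x => (A.cov x).choose_spec.1,
    fun _ => mem_range_self _⟩

theorem pcs (A : At C) [T1Space C] [ConnectedSpace C] (x : C) : PathConnectedSpace (Pc x) :=
  letI := cs A
  pc_pc x

theorem lpcs (A : At C) [T1Space C] (x : C) : LocallyPathConnectedSpace (Pc x) :=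
  letI := cs A
  lpc_pc x

variable (P : Loc A l g n d) {x : C}

theorem cyx (hx : x ∈ P.V) :
    Cy (fun k => fib hx ⁻¹' P.U k) fun k m y => P.c k m (fib hx y) :=
  P.cy.pull (P.cy.toOc.pre (fib hx)) fun _ _ h => h

theorem b_zpow (m : ℤ) : ∀ (q q' : Nd P.V P.δ) (k : P.ι), q'.1.1 = q.1.1 →
    q'.1.2 = q.1.2 + m * (2 * π * I) → P.ν q ∈ P.U k → P.b k q' = P.b k q * cwd g ^ m := by
  induction m using Int.induction_on with
  | zero =>
    intro q q' k a b _
    rw [show q' = q from Subtype.ext (Prod.ext a (by simpa using b)), zpow_zero, mul_one]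
  | succ m ih =>
    intro q q' k a b h
    rw [ih q.T q' k a (by rw [b]; push_cast; simp only [Nd.T]; ring) (P.ν_T q ▸ h), P.per k q h,
      mul_assoc, add_comm, zpow_one_add]
  | pred m ih =>
    intro q q' k a b h
    have e : P.ν q' = P.ν q := Subtype.ext (by
      rw [P.ν_eq, P.ν_eq, a, b, Complex.exp_add, exp_int_mul_two_pi_mul_I, mul_one])
    have := ih q q'.T k a (by simp only [Nd.T]; rw [b]; push_cast; ring) h
    rw [P.per k q' (e ▸ h)] at this
    rw [zpow_sub_one, ← mul_assoc, ← this, mul_inv_cancel_right]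

end Vale.Agent.P275RF
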